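import Vale.Agent.P090.Defs

/-!
Analytic lemmas: elements of a totally bounded part of the free space almost live on a finite set.
-/

noncomputable section

namespace Vale.Agent.P090

variable {M : Type} [MetricSpace M] {o : M}

theorem Lip0.norm_def (f : Lip0 M o) : ‖f‖ = f.lipConst := rfl

@[ext] theorem Lip0.ext' {f g : Lip0 M o} (h : ∀ x, f.toFun x = g.toFun x) : f = g :=
  Subtype.ext (funext h)

@[simp] theorem Lip0.add_toFun (f g : Lip0 M o) (x : M) :
    (f + g).toFun x = f.toFun x + g.toFun x := rfl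

@[simp] theorem Lip0.sub_toFun (f g : Lip0 M o) (x : M) :
    (f - g).toFun x = f.toFun x - g.toFun x := rfl

@[simp] theorem Lip0.smul_toFun (c : ℝ) (f : Lip0 M o) (x : M) :
    (c • f).toFun x = c * f.toFun x := rfl

@[simp] theorem Lip0.zero_toFun (x : M) : (0 : Lip0 M o).toFun x = 0 := rfl

@[simp] theorem delta_apply (x : M) (f : Lip0 M o) : delta o x f = f.toFun x := rfl

theorem Lip0.sum_toFun {ι : Type} (s : Finset ι) (f : ι → Lip0 M o) (x : M) :
    (∑ i ∈ s, f i).toFun x = ∑ i ∈ s, (f i).toFun x := by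
  rw [← delta_apply, map_sum]
  rfl

/-- Build an element of `Lip0`. -/
def Lip0.of (f : M → ℝ) (h0 : f o = 0) (K : ℝ) (hK : 0 ≤ K)
    (h : ∀ x y, |f x - f y| ≤ K * dist x y) : Lip0 M o :=
  (⟨f, h0, K, hK, h⟩ : lipSubmodule M o)

@[simp] theorem Lip0.of_toFun (f : M → ℝ) (h0 : f o = 0) (K : ℝ) (hK : 0 ≤ K)
    (h : ∀ x y, |f x - f y| ≤ K * dist x y) (x : M) : (Lip0.of f h0 K hK h).toFun x = f x := rfl

theorem norm_delta_sub_le (x y : M) : ‖delta o x - delta o y‖ ≤ dist x y := by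
  refine ContinuousLinearMap.opNorm_le_bound _ dist_nonneg fun f => ?_
  rw [mul_comm]
  exact f.le_lipConst x y

theorem delta_base : delta o o = 0 := by
  ext f
  exact (Subtype.prop f).1

theorem delta_mem (x : M) : delta o x ∈ FreeSpace M o :=
  Submodule.le_topologicalClosure _ (Submodule.subset_span ⟨x, rfl⟩)

/-- The point mass as an element of the free space. -/
def dl (o : M) (x : M) : FreeSpace M o := ⟨delta o x, delta_mem x⟩

theorem norm_dl_sub_le (x y : M) : ‖dl o x - dl o y‖ ≤ dist x y := norm_delta_sub_le x y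

theorem dl_base : dl o o = 0 := Subtype.ext delta_base

theorem exists_finset_of_mem_span (v : StrongDual ℝ (Lip0 M o))
    (hv : v ∈ Submodule.span ℝ (Set.range (delta o))) :
    ∃ Z : Finset M, ∀ h : Lip0 M o, (∀ z ∈ Z, h.toFun z = 0) → v h = 0 := by
  classical
  induction hv using Submodule.span_induction with
  | mem v hv =>
    obtain ⟨x, rfl⟩ := hv
    exact ⟨{x}, fun h hh => hh x (Finset.mem_singleton_self x)⟩
  | zero => exact ⟨∅, fun _ _ => rfl⟩
  | add u v _ _ hu hv =>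
    obtain ⟨Z, hZ⟩ := hu
    obtain ⟨Z', hZ'⟩ := hv
    refine ⟨Z ∪ Z', fun h hh => ?_⟩
    rw [add_apply, hZ h fun z hz => hh z (Finset.mem_union_left _ hz),
      hZ' h fun z hz => hh z (Finset.mem_union_right _ hz), add_zero]
  | smul c v _ hv =>
    obtain ⟨Z, hZ⟩ := hv
    refine ⟨Z, fun h hh => ?_⟩
    rw [smul_apply, hZ h hh, smul_zero]

theorem exists_finset_of_mem (v : FreeSpace M o) {η : ℝ} (hη : 0 < η) :
    ∃ Z : Finset M, ∀ h : Lip0 M o, (∀ z ∈ Z, h.toFun z = 0) → |v.1 h| ≤ η * ‖h‖ := by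
  have hv : v.1 ∈ closure (Submodule.span ℝ (Set.range (delta o)) :
      Set (StrongDual ℝ (Lip0 M o))) := v.2
  obtain ⟨u, hu, hd⟩ := Metric.mem_closure_iff.mp hv η hη
  obtain ⟨Z, hZ⟩ := exists_finset_of_mem_span u hu
  refine ⟨Z, fun h hh => ?_⟩
  have e : v.1 h = (v.1 - u) h := by rw [sub_apply, hZ h hh, sub_zero]
  rw [e]
  refine ((v.1 - u).le_opNorm h).trans (mul_le_mul_of_nonneg_right ?_ (norm_nonneg _))
  rw [← dist_eq_norm]
  exact hd.le

theorem exists_finset_of_totallyBounded (K : Set (FreeSpace M o)) (hK : TotallyBounded K)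
    {η : ℝ} (hη : 0 < η) :
    ∃ Z : Finset M, ∀ v ∈ K, ∀ h : Lip0 M o, (∀ z ∈ Z, h.toFun z = 0) → |v.1 h| ≤ η * ‖h‖ := by
  classical
  obtain ⟨t, ht, hcov⟩ := Metric.totallyBounded_iff.mp hK (η / 2) (half_pos hη)
  choose Z hZ using fun v : FreeSpace M o => exists_finset_of_mem v (half_pos hη)
  refine ⟨ht.toFinset.biUnion Z, fun v hv h hh => ?_⟩
  obtain ⟨u, hu, hvu⟩ := Set.mem_iUnion₂.mp (hcov hv)
  have h1 := hZ u h fun z hz => hh z (Finset.mem_biUnion.mpr ⟨u, ht.mem_toFinset.mpr hu, hz⟩)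
  have h2 : |(v - u).1 h| ≤ η / 2 * ‖h‖ := by
    refine ((v - u).1.le_opNorm h).trans (mul_le_mul_of_nonneg_right ?_ (norm_nonneg _))
    have : dist v.1 u.1 < η / 2 := hvu
    rw [dist_eq_norm] at this
    exact this.le
  have e : v.1 h = (v - u).1 h + u.1 h := by simp
  rw [e]
  refine (abs_add_le _ _).trans ?_
  linarith

theorem totallyBounded_image_of_finiteRank {X : Type} [NormedAddCommGroup X] [NormedSpace ℝ X]
    (T : X →L[ℝ] X) (hT : FiniteDimensional ℝ (LinearMap.range (T : X →ₗ[ℝ] X))) (R : ℝ) :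
    TotallyBounded (T '' Metric.closedBall 0 R) := by
  let V := LinearMap.range (T : X →ₗ[ℝ] X)
  have : ProperSpace V := FiniteDimensional.proper ℝ V
  have hc : IsCompact (Subtype.val '' Metric.closedBall (0 : V) (‖T‖ * R)) :=
    (isCompact_closedBall _ _).image continuous_subtype_val
  refine hc.totallyBounded.subset ?_
  rintro _ ⟨u, hu, rfl⟩
  refine ⟨⟨T u, u, rfl⟩, ?_, rfl⟩
  rw [mem_closedBall_zero_iff] at hu ⊢
  exact (T.le_opNorm u).trans (mul_le_mul_of_nonneg_left hu (norm_nonneg _))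

end Vale.Agent.P090
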