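import Vale.Agent.P090.Space

/-!
The combinatorial part: few vertices are bad, and around good vertices there is a bounded flow of
constant divergence on the tracking region.
-/

noncomputable section

namespace Vale.Agent.P090

open Finset

theorem finite_low (n j0 : ℕ) : {z : GP n | z.idx < j0}.Finite := by
  refine Set.Finite.subset ((Set.finite_lt_nat j0).biUnion fun i _ =>
    Set.finite_range (GP.mk' (n := n) (j := i))) ?_
  rintro ⟨i, y⟩ hz
  exact Set.mem_biUnion (x := i) hz ⟨y, rfl⟩

/-- The vertices of the first `j0` graphs of level `n`. -/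
def low (n j0 : ℕ) : Finset (GP n) := (finite_low n j0).toFinset

theorem mem_low {n j0 : ℕ} {z : GP n} : z ∈ low n j0 ↔ z.idx < j0 := by simp [low]

/-- `y` and `z` read the same colours along the reduced word `l`. -/
def Agree {n L : ℕ} (y z : GP n) (l : List.Vector Ltr L) : Prop :=
  FreeGroup.IsReduced l.1 ∧
    ∀ k : Fin L, (FreeGroup.mk (l.1.drop k) • y).col = (FreeGroup.mk (l.1.drop k) • z).col

def Bad {n : ℕ} (j0 L : ℕ) (y : GP n) : Prop :=
  ∃ z ∈ low n j0, ∃ l : List.Vector Ltr L, Agree y z l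

theorem card_fix {A : Type} [Fintype A] [DecidableEq A] {L : ℕ} (e : Fin L → A)
    (he : Function.Injective e) (ψ : Fin L → Fin 8) :
    (univ.filter fun c : A → Fin 8 => ∀ k, c (e k) = ψ k).card * 8 ^ L
      ≤ Fintype.card (A → Fin 8) := by
  have h8 : (8 : ℕ) ^ L = (univ : Finset (Fin L → Fin 8)).card := by simp
  rw [h8, ← card_product, ← card_univ]
  refine card_le_card_of_injOn (fun p => Function.extend e p.2 p.1) (fun _ _ => by simp) ?_
  rintro ⟨c, u⟩ h1 ⟨c', u'⟩ h2 h
  simp only [coe_product, Set.mem_prod, coe_filter, mem_univ, true_and, Set.mem_ofPred_eq] at h1 h2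
  have hu : u = u' := by
    funext k
    have := congrFun h (e k)
    simpa only [he.extend_apply] using this
  have hc : c = c' := by
    funext a
    by_cases ha : ∃ k, e k = a
    · obtain ⟨k, rfl⟩ := ha
      rw [h1.1 k, h2.1 k]
    · have := congrFun h a
      simpa only [Function.extend_apply' _ _ _ ha] using this
  rw [hu, hc]

theorem norm_mk_drop {L : ℕ} (l : List.Vector Ltr L) (hl : FreeGroup.IsReduced l.1) (k : ℕ) :
    (FreeGroup.mk (l.1.drop k)).norm = L - k := by
  have h : FreeGroup.IsReduced (l.1.drop k) := List.IsChain.suffix hl (List.drop_suffix k _)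
  rw [FreeGroup.norm, FreeGroup.toWord_mk, h.reduce_eq, List.length_drop, l.2]

open Classical in
theorem card_agree (n j L : ℕ) (hj : 2 * L ≤ j) (z : GP n) (l : List.Vector Ltr L) :
    (univ.filter fun y : YY n j => Agree (GP.mk' y) z l).card * 8 ^ L ≤ Fintype.card (YY n j) := by
  by_cases hl : FreeGroup.IsReduced l.1
  swap
  · have : (univ.filter fun y : YY n j => Agree (GP.mk' y) z l) = ∅ :=
      filter_eq_empty_iff.mpr fun y _ h => hl h.1
    simp [this]
  let ψ : Fin L → Fin 8 := fun k => (FreeGroup.mk (l.1.drop k) • z).col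
  let e : H j → Fin L → H j := fun a k => proj j (FreeGroup.mk (l.1.drop k)) * a
  have he : ∀ a, Function.Injective (e a) := by
    intro a k k' h
    have h1 := norm_mk_drop l hl k
    have h2 := norm_mk_drop l hl k'
    have h3 := eq_of_proj_mul j _ _ (by rw [h1, h2]; omega) a h
    rw [h3, h2] at h1
    have := k.2
    have := k'.2
    ext
    omega
  have hsub : (univ.filter fun y : YY n j => Agree (GP.mk' y) z l) ⊆
      (univ : Finset (QQ n × H j)).biUnion fun q =>
        (univ.filter fun c : H j → Fin 8 => ∀ k, c (e q.2 k) = ψ k).image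
          fun c => (q.1, q.2, c) := by
    rintro ⟨p, a, c⟩ hy
    simp only [mem_filter, mem_univ, true_and] at hy
    refine mem_biUnion.mpr ⟨(p, a), mem_univ _, mem_image.mpr ⟨c, ?_, rfl⟩⟩
    simp only [mem_filter, mem_univ, true_and]
    exact hy.2
  have h1 := (card_le_card hsub).trans card_biUnion_le
  calc _ ≤ (∑ q : QQ n × H j, ((univ.filter fun c : H j → Fin 8 => ∀ k, c (e q.2 k) = ψ k).image
          fun c => (q.1, q.2, c)).card) * 8 ^ L := Nat.mul_le_mul_right _ h1
    _ ≤ ∑ _q : QQ n × H j, Fintype.card (H j → Fin 8) := by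
        rw [sum_mul]
        exact sum_le_sum fun q _ =>
          (Nat.mul_le_mul_right _ card_image_le).trans (card_fix _ (he q.2) ψ)
    _ = _ := by
        simp only [sum_const, card_univ, Fintype.card_prod, smul_eq_mul]
        ring

open Classical in
theorem card_bad (n j0 j L : ℕ) (hj : 2 * L ≤ j) :
    (univ.filter fun y : YY n j => Bad j0 L (GP.mk' y)).card * 2 ^ L
      ≤ (low n j0).card * Fintype.card (YY n j) := by
  have hsub : (univ.filter fun y : YY n j => Bad j0 L (GP.mk' y)) ⊆
      (low n j0 ×ˢ (univ : Finset (List.Vector Ltr L))).biUnion fun q =>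
        univ.filter fun y : YY n j => Agree (GP.mk' y) q.1 q.2 := by
    intro y hy
    simp only [mem_filter, mem_univ, true_and] at hy
    obtain ⟨z, hz, l, h⟩ := hy
    exact mem_biUnion.mpr ⟨(z, l), by simp [hz], by simpa using h⟩
  have h1 := (card_le_card hsub).trans card_biUnion_le
  have h2 : (univ.filter fun y : YY n j => Bad j0 L (GP.mk' y)).card * 8 ^ L
      ≤ (low n j0).card * 4 ^ L * Fintype.card (YY n j) := by
    refine (Nat.mul_le_mul_right _ h1).trans ?_
    rw [sum_mul]
    refine (sum_le_sum fun q _ => card_agree n j L hj q.1 q.2).trans ?_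
    simp [card_vector]
  have h3 : (8 : ℕ) ^ L = 2 ^ L * 4 ^ L := by rw [← mul_pow]; norm_num
  refine Nat.le_of_mul_le_mul_right ?_ (pow_pos (by norm_num : 0 < 4) L)
  calc _ = (univ.filter fun y : YY n j => Bad j0 L (GP.mk' y)).card * 8 ^ L := by rw [h3]; ring
    _ ≤ _ := h2
    _ = _ := by ring

theorem GP.eq_one_of_smul_eq {n : ℕ} (z : GP n) (g : W) (hg : g.norm ≤ z.idx) (h : g • z = z) :
    g = 1 := by
  obtain ⟨j, y⟩ := z
  have h1 : YY.act g y = y := sigma_mk_injective (β := fun j => YY n j) h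
  have h2 : proj j g * y.2.1 = proj j 1 * y.2.1 := by
    simpa [YY.act] using congrArg (fun t : YY n j => t.2.1) h1
  have hg' : g.norm ≤ j := hg
  exact eq_of_proj_mul j g 1 (by simpa using hg') _ h2

/-- The agreement set. -/
def agreeSet (n j0 j L : ℕ) : Set (GP n × GP n) :=
  {v | v.1.idx = j ∧ ¬ Bad j0 L v.1 ∧ v.2.idx < j0 ∧ v.1.col = v.2.col}

theorem agreeSet_free (n j0 j L : ℕ) (hj : L ≤ j) (v : GP n × GP n) (g : W)
    (h : Reach (agreeSet n j0 j L) v g) (hv : g • v = v) : g = 1 := by
  have h0 : v ∈ agreeSet n j0 j L := by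
    simpa [← FreeGroup.one_eq_mk] using h.suffix_mem [] List.nil_suffix
  have hL : g.norm < L := by
    by_contra hc
    have hc' : L ≤ g.toWord.length := not_lt.mp hc
    refine h0.2.1 ⟨v.2, mem_low.mpr h0.2.2.1,
      ⟨g.toWord.drop (g.toWord.length - L), by rw [List.length_drop]; omega⟩, ?_, fun k => ?_⟩
    · exact List.IsChain.suffix FreeGroup.isReduced_toWord (List.drop_suffix _ _)
    · exact (h.suffix_mem _ ((List.drop_suffix _ _).trans (List.drop_suffix _ _))).2.2.2
  refine GP.eq_one_of_smul_eq v.1 g ?_ (congrArg Prod.fst hv)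
  rw [h0.1]
  omega

def Near {n : ℕ} (y : GP n) (x : FP n) : Prop := ∃ u, Aligned y x u ∧ u.1.norm < rho n

open Classical in
/-- The aligning word. -/
def UU {n : ℕ} (y : GP n) (x : FP n) : W := if h : Near y x then h.choose.1 else 1

theorem UU_pos {n : ℕ} {y : GP n} {x : FP n} (h : Near y x) :
    x.1 = proj _ (UU y x) * y.pos := by
  rw [UU, dif_pos h]; exact h.choose_spec.1.1

theorem UU_norm {n : ℕ} {y : GP n} {x : FP n} (h : Near y x) : (UU y x).norm < rho n := by
  rw [UU, dif_pos h]; exact h.choose_spec.2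

theorem UU_col {n : ℕ} {y z : GP n} (h : Near y z.typ) : ((UU y z.typ)⁻¹ • z).col = y.col := by
  rw [UU, dif_pos h]; exact h.choose_spec.1.2

theorem UU_vert {n : ℕ} {y z : GP n} {s : Ltr} (h : Near y z.typ) (h' : Near y (ltr s • z).typ) :
    UU y (ltr s • z).typ = ltr s * UU y z.typ := by
  have h1 := UU_norm h
  have h2 := UU_norm h'
  have h3 := norm_ltr_mul_le s (UU y z.typ)
  refine eq_of_proj_mul (2 * rho n) _ _ (by omega) y.pos ?_
  rw [← UU_pos h', map_mul, mul_assoc, ← UU_pos h]
  rfl

theorem UU_horiz {n : ℕ} {y : GP n} {x : FP n} {s : Ltr} (h : Near y x)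
    (h' : Near (ltr s • y) x) : (UU (ltr s • y) x)⁻¹ = ltr s * (UU y x)⁻¹ := by
  have h1 := UU_norm h
  have h2 := UU_norm h'
  have h3 := norm_mul_ltr_le s (UU (ltr s • y) x)
  have h4 : UU (ltr s • y) x * ltr s = UU y x := by
    refine eq_of_proj_mul (2 * rho n) _ _ (by omega) y.pos ?_
    rw [← UU_pos h, map_mul, mul_assoc, ← GP.pos_smul, ← UU_pos h']
  rw [← h4, mul_inv_rev, mul_inv_cancel_left]

/-- The target: all types and the first `j0` graphs. -/
def Tgt {n : ℕ} (j0 : ℕ) (b : LP n) : Prop := Sum.elim (fun _ => True) (fun z => z.idx < j0) b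

theorem finite_tgt (n j0 : ℕ) : {b : LP n | Tgt j0 b}.Finite := by
  refine Set.Finite.subset ((Set.finite_range (Sum.inl : FP n → LP n)).union
    ((finite_low n j0).image Sum.inr)) ?_
  rintro (x | z) h
  · exact Or.inl ⟨x, rfl⟩
  · exact Or.inr ⟨z, h, rfl⟩

open Classical in
/-- Indicator function of the target. -/
def tau (n j0 : ℕ) (a : Pt) : ℝ := Option.elim (lev n a) 0 fun b => if Tgt j0 b then 1 else 0

theorem near_of_dist {n : ℕ} {y : GP n} {b : LP n} (h : dist (pG y) (pt b) < rho n) :
    Near y b.typ := by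
  obtain ⟨b', hb, hu⟩ := exists_aligned y _ h
  have : lev n (pt b) = lev n (pt b') := by rw [hb]
  rw [lev_pt, lev_pt] at this
  rw [Option.some.inj this]
  exact hu

theorem exists_theta (n j0 j L : ℕ) (hj : L ≤ j) :
    ∃ θ : GP n → Ltr → Pt → ℝ,
      (∀ y s a, |θ y s a| ≤ 1) ∧
      (∀ y s a, lev n a = none → θ y s a = 0) ∧
      (∀ (y : YY n j) a, ∑ s, θ (GP.mk' y) s a = 2 * tau n j0 a) ∧
      (∀ y s (z : GP n) t, dist (pG y) (pG z) < rho n → dist (pG y) (pG (ltr t • z)) < rho n →
        θ y s (pG z) = θ y s (pG (ltr t • z))) ∧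
      (∀ (y : GP n) s a, y.idx = j → ¬ Bad j0 L y → ¬ Bad j0 L (ltr s • y) →
        dist (pG y) a < rho n → dist (pG (ltr s • y)) a < rho n →
        θ (ltr s • y) (inv s) a = - θ y s a) := by
  classical
  obtain ⟨w, hw⟩ := exists_potential (agreeSet n j0 j L) (agreeSet_free n j0 j L hj)
  let ww : GP n → LP n → W := fun y b =>
    Sum.elim (fun x => (UU y x)⁻¹) (fun z => w (y, (UU y z.typ)⁻¹ • z)) b
  have hfin : (Set.image2 (fun (y : YY n j) (b : LP n) => (ww (GP.mk' y) b)⁻¹) Set.univ
      {b | Tgt j0 b}).Finite := Set.Finite.image2 _ Set.finite_univ (finite_tgt n j0)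
  obtain ⟨g0, hg0⟩ := hfin.exists_notMem
  refine ⟨fun y s a => Option.elim (lev n a) 0 fun b =>
    if Tgt j0 b then flow (ww y b * g0) s else 0, ?_, ?_, ?_, ?_, ?_⟩
  · intro y s a
    beta_reduce
    cases lev n a with
    | none => simp
    | some b =>
      simp only [Option.elim]
      split_ifs
      · exact abs_flow_le _ _
      · simp
  · intro y s a h
    simp [h]
  · intro y a
    unfold tau
    beta_reduce
    cases lev n a with
    | none => simp
    | some b =>
      simp only [Option.elim]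
      by_cases hb : Tgt j0 b
      · simp only [if_pos hb, mul_one]
        refine sum_flow _ fun h => hg0 ⟨y, trivial, b, hb, ?_⟩
        exact (eq_inv_of_mul_eq_one_right h).symm
      · simp [hb]
  · intro y s z t h1 h2
    have n1 : Near y z.typ := near_of_dist h1
    have n2 : Near y (ltr t • z).typ := near_of_dist h2
    have e : ww y (Sum.inr (ltr t • z)) = ww y (Sum.inr z) := by
      simp only [ww, Sum.elim_inr, UU_vert n1 n2, smul_smul, mul_inv_rev, inv_mul_cancel_right]
    have e' : Tgt j0 (Sum.inr (ltr t • z)) ↔ Tgt j0 (Sum.inr z) := Iff.rfl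
    simp only [lev_pt, Option.elim, e, e']
  · intro y s a hy b1 b2 h1 h2
    obtain ⟨b, rfl, -⟩ := exists_aligned y a h1
    have n1 : Near y b.typ := near_of_dist h1
    have n2 : Near (ltr s • y) b.typ := near_of_dist h2
    simp only [lev_pt, Option.elim]
    split_ifs with hb
    · have e : ww (ltr s • y) b = ltr s * ww y b := by
        rcases b with x | z
        · exact UU_horiz n1 n2
        · have e1 : (UU (ltr s • y) z.typ)⁻¹ • z = ltr s • (UU y z.typ)⁻¹ • z := by
            rw [smul_smul]
            exact congrArg (· • z) (UU_horiz n1 n2)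
          have m1 : (y, (UU y z.typ)⁻¹ • z) ∈ agreeSet n j0 j L :=
            ⟨hy, b1, hb, (UU_col n1).symm⟩
          have m2 : (ltr s • y, (UU (ltr s • y) z.typ)⁻¹ • z) ∈ agreeSet n j0 j L :=
            ⟨hy, b2, hb, (UU_col n2).symm⟩
          rw [e1] at m2
          have := hw _ s m1 m2
          simp only [ww, Sum.elim_inr, e1]
          exact this
      rw [e, mul_assoc, flow_inv]
    · simp

end Vale.Agent.P090
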