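import Mathlib

/-!
Definitions for P090: the space of Lipschitz functions vanishing at a base point, normed by the
Lipschitz constant; the Lipschitz-free space; the bounded approximation property.
-/

noncomputable section

namespace Vale.Agent.P090

/-- The real Lipschitz functions on `M` vanishing at `o`, as a subspace of `M → ℝ`. -/
def lipSubmodule (M : Type) [MetricSpace M] (o : M) : Submodule ℝ (M → ℝ) where
  carrier := {f | f o = 0 ∧ ∃ K : ℝ, 0 ≤ K ∧ ∀ x y, |f x - f y| ≤ K * dist x y}
  zero_mem' := ⟨rfl, 0, le_rfl, fun x y => by simp⟩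
  add_mem' := by
    rintro f g ⟨hf0, K, hK, hf⟩ ⟨hg0, L, hL, hg⟩
    refine ⟨by simp [hf0, hg0], K + L, add_nonneg hK hL, fun x y => ?_⟩
    have h : (f + g) x - (f + g) y = (f x - f y) + (g x - g y) := by simp only [Pi.add_apply]; ring
    rw [h, add_mul]
    exact (abs_add_le _ _).trans (add_le_add (hf x y) (hg x y))
  smul_mem' := by
    rintro c f ⟨hf0, K, hK, hf⟩
    refine ⟨by simp [hf0], |c| * K, mul_nonneg (abs_nonneg c) hK, fun x y => ?_⟩
    have h : (c • f) x - (c • f) y = c * (f x - f y) := by simp only [Pi.smul_apply, smul_eq_mul]; ring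
    rw [h, abs_mul, mul_assoc]
    exact mul_le_mul_of_nonneg_left (hf x y) (abs_nonneg c)

/-- The type `Lip_0(M)` (a fresh copy of the subspace, so that it carries only the Lipschitz norm). -/
def Lip0 (M : Type) [MetricSpace M] (o : M) : Type := lipSubmodule M o

variable (M : Type) [MetricSpace M] (o : M)

instance : AddCommGroup (Lip0 M o) := Submodule.addCommGroup (lipSubmodule M o)
instance : Module ℝ (Lip0 M o) := Submodule.module (lipSubmodule M o)

variable {M o}

/-- The underlying function of an element of `Lip_0(M)`. -/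
def Lip0.toFun (f : Lip0 M o) : M → ℝ := Subtype.val f

/-- The Lipschitz constant of `f`: the least `K ≥ 0` with `|f x - f y| ≤ K * dist x y`. -/
def Lip0.lipConst (f : Lip0 M o) : ℝ :=
  sInf {K : ℝ | 0 ≤ K ∧ ∀ x y, |f.toFun x - f.toFun y| ≤ K * dist x y}

theorem Lip0.lipConst_le (f : Lip0 M o) {K : ℝ} (hK : 0 ≤ K)
    (h : ∀ x y, |f.toFun x - f.toFun y| ≤ K * dist x y) : f.lipConst ≤ K :=
  csInf_le ⟨0, fun _ hc => hc.1⟩ ⟨hK, h⟩

theorem Lip0.lipConst_nonneg (f : Lip0 M o) : 0 ≤ f.lipConst :=
  Real.sInf_nonneg fun _ hc => hc.1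

theorem Lip0.le_lipConst (f : Lip0 M o) (x y : M) :
    |f.toFun x - f.toFun y| ≤ f.lipConst * dist x y := by
  rcases eq_or_ne x y with rfl | hxy
  · simp
  · have hd : 0 < dist x y := dist_pos.mpr hxy
    rw [← div_le_iff₀ hd]
    refine le_csInf (Subtype.prop f).2 fun K hK => ?_
    rw [div_le_iff₀ hd]
    exact hK.2 x y

instance : Norm (Lip0 M o) := ⟨Lip0.lipConst⟩

theorem Lip0.core : NormedSpace.Core ℝ (Lip0 M o) where
  norm_nonneg f := f.lipConst_nonneg
  norm_smul c f := by
    have key : ∀ (c : ℝ) (f : Lip0 M o), (c • f).lipConst ≤ |c| * f.lipConst := fun c f => by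
      refine Lip0.lipConst_le _ (mul_nonneg (abs_nonneg c) f.lipConst_nonneg) fun x y => ?_
      have h : (c • f).toFun x - (c • f).toFun y = c * (f.toFun x - f.toFun y) := by
        change c * f.toFun x - c * f.toFun y = _
        ring
      rw [h, abs_mul, mul_assoc]
      exact mul_le_mul_of_nonneg_left (f.le_lipConst x y) (abs_nonneg c)
    change (c • f).lipConst = |c| * f.lipConst
    refine le_antisymm (key c f) ?_
    rcases eq_or_ne c 0 with rfl | hc
    · simpa using Lip0.lipConst_nonneg _
    · have h := key c⁻¹ (c • f)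
      rw [smul_smul, inv_mul_cancel₀ hc, one_smul, abs_inv] at h
      have hc' : 0 < |c| := abs_pos.mpr hc
      rwa [← div_eq_inv_mul, le_div_iff₀ hc', mul_comm] at h
  norm_triangle f g := by
    refine Lip0.lipConst_le _ (add_nonneg f.lipConst_nonneg g.lipConst_nonneg) fun x y => ?_
    have h : (f + g).toFun x - (f + g).toFun y
        = (f.toFun x - f.toFun y) + (g.toFun x - g.toFun y) := by
      change (f.toFun x + g.toFun x) - (f.toFun y + g.toFun y) = _
      ring
    rw [h]
    refine (abs_add_le _ _).trans ?_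
    have h1 := f.le_lipConst x y
    have h2 := g.le_lipConst x y
    change _ ≤ (f.lipConst + g.lipConst) * dist x y
    linarith
  norm_eq_zero_iff f := by
    constructor
    · intro h
      have h' : f.lipConst = 0 := h
      refine Subtype.ext (funext fun x => ?_)
      have h1 := f.le_lipConst x o
      have h0 : f.toFun o = 0 := (Subtype.prop f).1
      rw [h', zero_mul, h0, sub_zero] at h1
      exact abs_nonpos_iff.mp h1
    · rintro rfl
      refine le_antisymm (Lip0.lipConst_le _ le_rfl fun x y => ?_) (Lip0.lipConst_nonneg _)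
      change |(0 : ℝ) - 0| ≤ _
      simp

instance : NormedAddCommGroup (Lip0 M o) := NormedAddCommGroup.ofCore Lip0.core
instance : NormedSpace ℝ (Lip0 M o) := NormedSpace.ofCore Lip0.core

variable (o)

/-- The evaluation functional `δ_x ∈ Lip_0(M)^*`, `δ_x(f) = f(x)`. -/
def delta (x : M) : StrongDual ℝ (Lip0 M o) :=
  LinearMap.mkContinuous
    { toFun := fun f => f.toFun x
      map_add' := fun _ _ => rfl
      map_smul' := fun _ _ => rfl }
    (dist x o) fun f => by
      have h1 := f.le_lipConst x o
      have h0 : f.toFun o = 0 := (Subtype.prop f).1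
      rw [h0, sub_zero, mul_comm] at h1
      exact h1

variable (M)

/-- The Lipschitz-free space `F(M)`: the closed linear span of the `δ_x` in `Lip_0(M)^*`. -/
def FreeSpace : Submodule ℝ (StrongDual ℝ (Lip0 M o)) :=
  (Submodule.span ℝ (Set.range (delta o))).topologicalClosure

/-- The `lam`-bounded approximation property. -/
def HasBAPWith (X : Type) [NormedAddCommGroup X] [NormedSpace ℝ X] (lam : ℝ) : Prop :=
  ∀ C : Set X, IsCompact C → ∀ ε : ℝ, 0 < ε →
    ∃ T : X →L[ℝ] X, FiniteDimensional ℝ (LinearMap.range (T : X →ₗ[ℝ] X)) ∧ ‖T‖ ≤ lam ∧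
      ∀ u ∈ C, ‖T u - u‖ < ε

/-- The bounded approximation property. -/
def HasBAP (X : Type) [NormedAddCommGroup X] [NormedSpace ℝ X] : Prop :=
  ∃ lam : ℝ, 1 ≤ lam ∧ HasBAPWith X lam

end Vale.Agent.P090
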