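import Mathlib

/-!
The free group on two generators: letters, the outward flow on its Cayley tree, and finite
quotients of large girth.
-/

noncomputable section

namespace Vale.Agent.P090

abbrev W : Type := FreeGroup Bool
abbrev Ltr : Type := Bool × Bool

def ltr (s : Ltr) : W := FreeGroup.mk [s]
def inv (s : Ltr) : Ltr := (s.1, !s.2)

@[simp] theorem inv_inv' (s : Ltr) : inv (inv s) = s := by
  simp [inv]

theorem ltr_inv (s : Ltr) : ltr (inv s) = (ltr s)⁻¹ := by
  simp [ltr, inv, FreeGroup.inv_mk, FreeGroup.invRev]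

theorem norm_ltr (s : Ltr) : (ltr s).norm = 1 := by
  simp [ltr, FreeGroup.norm, FreeGroup.toWord_mk]

theorem ltr_mul_mk (s : Ltr) (l : List Ltr) :
    ltr s * FreeGroup.mk l = FreeGroup.mk (s :: l) := by
  simp [ltr, FreeGroup.mul_mk]

theorem toWord_ltr_mul (s : Ltr) (g : W) :
    (ltr s * g).toWord =
      List.casesOn g.toWord [s] fun hd tl => if s = inv hd then tl else s :: hd :: tl := by
  have h : ltr s * g = FreeGroup.mk (s :: g.toWord) := by
    rw [← ltr_mul_mk, FreeGroup.mk_toWord]
  rw [h, FreeGroup.toWord_mk, FreeGroup.reduce.cons, FreeGroup.reduce_toWord]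
  cases g.toWord with
  | nil => rfl
  | cons hd tl =>
    have : (s.1 = hd.1 ∧ s.2 = !hd.2) ↔ s = inv hd := by
      simp [inv, Prod.ext_iff]
    simp only [this]

theorem toWord_ltr_mul_cases (s : Ltr) (g : W) :
    (ltr s * g).toWord = s :: g.toWord ∨ ∃ hd, g.toWord = hd :: (ltr s * g).toWord := by
  rw [toWord_ltr_mul]
  cases g.toWord with
  | nil => left; rfl
  | cons hd tl =>
    by_cases h : s = inv hd
    · right; exact ⟨hd, by simp [h]⟩
    · left; simp [h]

theorem norm_ltr_mul_le (s : Ltr) (g : W) : (ltr s * g).norm ≤ g.norm + 1 := by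
  have := FreeGroup.norm_mul_le (ltr s) g
  rw [norm_ltr] at this
  omega

theorem norm_mul_ltr_le (s : Ltr) (g : W) : (g * ltr s).norm ≤ g.norm + 1 := by
  have := FreeGroup.norm_mul_le g (ltr s)
  rw [norm_ltr] at this
  omega

/-- The outward unit flow on the Cayley tree. -/
def flow (g : W) (s : Ltr) : ℝ := ((ltr s * g).norm : ℝ) - g.norm

theorem flow_inv (g : W) (s : Ltr) : flow (ltr s * g) (inv s) = - flow g s := by
  simp [flow, ltr_inv]

theorem abs_flow_le (g : W) (s : Ltr) : |flow g s| ≤ 1 := by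
  have h1 := norm_ltr_mul_le s g
  have h2 := norm_ltr_mul_le (inv s) (ltr s * g)
  rw [ltr_inv, inv_mul_cancel_left] at h2
  have h1' : ((ltr s * g).norm : ℝ) ≤ g.norm + 1 := by exact_mod_cast h1
  have h2' : (g.norm : ℝ) ≤ (ltr s * g).norm + 1 := by exact_mod_cast h2
  rw [flow, abs_le]
  constructor <;> linarith

theorem sum_flow (g : W) (hg : g ≠ 1) : ∑ s, flow g s = 2 := by
  have hne : g.toWord ≠ [] := fun h => hg (FreeGroup.toWord_eq_nil_iff.mp h)
  obtain ⟨hd, tl, h⟩ := List.exists_cons_of_ne_nil hne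
  have key : ∀ s, flow g s = 1 - 2 * (if s = inv hd then 1 else 0) := by
    intro s
    simp only [flow, FreeGroup.norm, toWord_ltr_mul, h]
    split_ifs
    · simp; ring
    · simp
  simp only [key, Finset.sum_sub_distrib, ← Finset.mul_sum]
  simp
  norm_num

/-- The ball of radius `R`. -/
abbrev Ball (R : ℕ) : Type := {g : W // g.norm ≤ R}

instance (R : ℕ) : Finite (Ball R) := by
  have h : ({g : W | g.norm ≤ R}).Finite := by
    refine Set.Finite.subset ((List.finite_length_le Ltr R).image FreeGroup.mk) ?_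
    intro g hg
    exact ⟨g.toWord, hg, FreeGroup.mk_toWord⟩
  exact h

instance (R : ℕ) : Fintype (Ball R) := Fintype.ofFinite _

/-- Left multiplication by `a`, as a bijection between parts of the ball. -/
def partMul (R : ℕ) (a : W) :
    {x : Ball R // (a * x.1).norm ≤ R} ≃ {x : Ball R // (a⁻¹ * x.1).norm ≤ R} where
  toFun x := ⟨⟨a * x.1.1, x.2⟩, by simpa using x.1.2⟩
  invFun x := ⟨⟨a⁻¹ * x.1.1, x.2⟩, by simpa using x.1.2⟩
  left_inv x := by ext; simp
  right_inv x := by ext; simp

/-- The finite group of girth above `R`. -/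
abbrev H (R : ℕ) : Type := Equiv.Perm (Ball R)

def proj (R : ℕ) : W →* H R :=
  FreeGroup.lift fun a => (partMul R (FreeGroup.of a)).extendSubtype

theorem proj_ltr_apply (R : ℕ) (s : Ltr) (x : Ball R) (h : (ltr s * x.1).norm ≤ R) :
    proj R (ltr s) x = ⟨ltr s * x.1, h⟩ := by
  obtain ⟨a, b⟩ := s
  cases b with
  | true =>
    have e : ltr (a, true) = FreeGroup.of a := rfl
    simp only [e] at h ⊢
    rw [proj, FreeGroup.lift_apply_of]
    exact Equiv.extendSubtype_apply_of_mem (partMul R (FreeGroup.of a)) x h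
  | false =>
    have e : ltr (a, false) = (FreeGroup.of a)⁻¹ := ltr_inv (a, true)
    simp only [e] at h ⊢
    rw [map_inv, proj, FreeGroup.lift_apply_of, Equiv.Perm.inv_eq_iff_eq,
      Equiv.extendSubtype_apply_of_mem (partMul R (FreeGroup.of a)) _ (by simpa using x.2)]
    ext
    simp [partMul]

theorem proj_mk_apply (R : ℕ) (x : Ball R) (hx : x.1 = 1) (l : List Ltr) (hl : l.length ≤ R) :
    (proj R (FreeGroup.mk l) x).1 = FreeGroup.mk l := by
  induction l with
  | nil => simp [← FreeGroup.one_eq_mk, hx]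
  | cons s t ih =>
    have ht : t.length ≤ R := by simp at hl; omega
    have ih' := ih ht
    have h : (ltr s * (proj R (FreeGroup.mk t) x).1).norm ≤ R := by
      rw [ih', ltr_mul_mk]
      exact FreeGroup.norm_mk_le.trans hl
    rw [← ltr_mul_mk, map_mul, Equiv.Perm.mul_apply, proj_ltr_apply R s _ h]
    exact congrArg (ltr s * ·) ih'

theorem eq_one_of_proj (R : ℕ) (g : W) (hg : g.norm ≤ R) (h : proj R g = 1) : g = 1 := by
  have := proj_mk_apply R ⟨1, by simp⟩ rfl g.toWord hg
  rw [FreeGroup.mk_toWord, h] at this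
  exact this.symm

theorem eq_of_proj_mul (R : ℕ) (g g' : W) (hg : g.norm + g'.norm ≤ R) (a : H R)
    (h : proj R g * a = proj R g' * a) : g = g' := by
  have h1 : proj R (g⁻¹ * g') = 1 := by
    rw [map_mul, map_inv, ← mul_right_cancel h, inv_mul_cancel]
  have h2 : (g⁻¹ * g').norm ≤ R := by
    refine (FreeGroup.norm_mul_le _ _).trans ?_
    rwa [FreeGroup.norm_inv_eq]
  exact eq_of_inv_mul_eq_one (eq_one_of_proj R _ h2 h1)

instance : Infinite W := Infinite.of_surjective _ (FreeGroup.norm_surjective (α := Bool))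

/-! Trivialising the monodromy on a subset of a `W`-set. -/

section Reach

variable {P : Type} [MulAction W P]

/-- `Reach A v g`: there is a walk from `v` to `g • v` inside `A` whose word is `g`. -/
inductive Reach (A : Set P) (v : P) : W → Prop
  | one : v ∈ A → Reach A v 1
  | step (g : W) (s : Ltr) : Reach A v g → (ltr s * g) • v ∈ A → Reach A v (ltr s * g)

theorem Reach.mem {A : Set P} {v : P} {g : W} (h : Reach A v g) : g • v ∈ A := by
  cases h with
  | one h => simpa using h
  | step g s _ h => exact h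

theorem Reach.trans {A : Set P} {v : P} {g g' : W} (h : Reach A v g) (h' : Reach A (g • v) g') :
    Reach A v (g' * g) := by
  induction h' with
  | one _ => simpa using h
  | step k s _ hk ih =>
    rw [mul_assoc]
    refine Reach.step _ s ih ?_
    rwa [← mul_assoc, mul_smul]

theorem Reach.symm {A : Set P} {v : P} {g : W} (h : Reach A v g) : Reach A (g • v) g⁻¹ := by
  induction h with
  | one h => simpa using Reach.one h
  | step k s hk hs ih =>
    have h1 : Reach A ((ltr s * k) • v) (ltr (inv s) * 1) := by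
      refine Reach.step _ _ (Reach.one hs) ?_
      rw [mul_one, ltr_inv, smul_smul, inv_mul_cancel_left]
      exact hk.mem
    rw [mul_one] at h1
    have h2 : Reach A (ltr (inv s) • (ltr s * k) • v) k⁻¹ := by
      rwa [ltr_inv, smul_smul, inv_mul_cancel_left]
    have h3 := h1.trans h2
    rwa [ltr_inv, ← mul_inv_rev] at h3

theorem Reach.suffix_mem {A : Set P} {v : P} {g : W} (h : Reach A v g) :
    ∀ t, t <:+ g.toWord → FreeGroup.mk t • v ∈ A := by
  induction h with
  | one h =>
    intro t ht
    rw [FreeGroup.toWord_one, List.suffix_nil] at ht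
    subst ht
    simpa [← FreeGroup.one_eq_mk] using h
  | step k s _ hs ih =>
    intro t ht
    rcases toWord_ltr_mul_cases s k with e | ⟨hd, e⟩
    · rw [e, List.suffix_cons_iff] at ht
      rcases ht with rfl | ht
      · rw [← e, FreeGroup.mk_toWord]; exact hs
      · exact ih t ht
    · refine ih t ?_
      rw [e]
      exact ht.trans (List.suffix_cons _ _)

theorem exists_potential (A : Set P)
    (hA : ∀ v g, Reach A v g → g • v = v → g = 1) :
    ∃ w : P → W, ∀ v s, v ∈ A → ltr s • v ∈ A → w (ltr s • v) = ltr s * w v := by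
  classical
  let r : P → P → Prop := fun u v => u = v ∨ ∃ g, Reach A u g ∧ g • u = v
  have hr : Equivalence r := by
    refine ⟨fun u => Or.inl rfl, ?_, ?_⟩
    · rintro u v (rfl | ⟨g, hg, rfl⟩)
      · exact Or.inl rfl
      · exact Or.inr ⟨g⁻¹, hg.symm, by simp⟩
    · rintro u v x (rfl | ⟨g, hg, rfl⟩) h2
      · exact h2
      · rcases h2 with rfl | ⟨g', hg', rfl⟩
        · exact Or.inr ⟨g, hg, rfl⟩
        · exact Or.inr ⟨g' * g, hg.trans hg', by rw [mul_smul]⟩
  let S : Setoid P := ⟨r, hr⟩
  let root : P → P := fun v => (Quotient.mk S v).out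
  have hroot : ∀ v, v ∈ A → ∃ g, Reach A (root v) g ∧ g • root v = v := by
    intro v hv
    have h : r (root v) v := Quotient.mk_out (s := S) v
    rcases h with h | h
    · exact ⟨1, Reach.one (by rw [h]; exact hv), by rw [one_smul, h]⟩
    · exact h
  refine ⟨fun v => if hv : v ∈ A then (hroot v hv).choose else 1, fun v s hv hsv => ?_⟩
  simp only [dif_pos hv, dif_pos hsv]
  obtain ⟨h1, h2⟩ := (hroot v hv).choose_spec
  obtain ⟨h3, h4⟩ := (hroot _ hsv).choose_spec
  set g := (hroot v hv).choose
  set g' := (hroot _ hsv).choose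
  have hre : root (ltr s • v) = root v := by
    have : Quotient.mk S (ltr s • v) = Quotient.mk S v := by
      refine (Quotient.sound (s := S) ?_).symm
      refine Or.inr ⟨ltr s * 1, Reach.step _ _ (Reach.one hv) (by simpa using hsv), by simp⟩
    simp only [root, this]
  rw [hre] at h3 h4
  have h5 : Reach A (root v) (ltr s * g) := Reach.step _ _ h1 (by rwa [mul_smul, h2])
  have h6 : (ltr s * g) • root v = g' • root v := by rw [mul_smul, h2, h4]
  have h7 : Reach A ((ltr s * g) • root v) g'⁻¹ := h6 ▸ h3.symm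
  have h8 := hA _ _ (h5.trans h7) (by rw [mul_smul, h6, inv_smul_smul])
  exact eq_of_inv_mul_eq_one h8

end Reach

end Vale.Agent.P090
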