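import Vale.Agent.P090.Comb

/-!
The analytic estimate and the failure of the bounded approximation property.
-/

noncomputable section

namespace Vale.Agent.P090

open Finset

theorem abs_mul_sub_le {a b s t δ : ℝ} (ha : 0 ≤ a) (hb : 0 ≤ b) (hs : |s| ≤ 1) (ht : |t| ≤ 1)
    (hd : |a - b| ≤ δ) (h : 0 < a → 0 < b → s = t) : |a * s - b * t| ≤ δ := by
  rcases ha.eq_or_lt with rfl | ha'
  · rw [zero_mul, zero_sub, abs_neg, abs_mul]
    rw [zero_sub, abs_neg] at hd
    exact (mul_le_of_le_one_right (abs_nonneg _) ht).trans hd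
  rcases hb.eq_or_lt with rfl | hb'
  · rw [zero_mul, sub_zero, abs_mul]
    rw [sub_zero] at hd
    exact (mul_le_of_le_one_right (abs_nonneg _) hs).trans hd
  rw [← h ha' hb', ← sub_mul, abs_mul]
  exact (mul_le_of_le_one_right (abs_nonneg _) hs).trans hd

/-- The cutoff function around `y`. -/
def chi {n : ℕ} (y : GP n) (a : Pt) : ℝ := max 0 (1 - dist (pG y) a / rho n)

theorem rho_pos (n : ℕ) : (0 : ℝ) < rho n := by exact_mod_cast one_le_rho n
theorem rr_pos (n : ℕ) : (0 : ℝ) < rr n := by exact_mod_cast one_le_rr n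

theorem chi_nonneg {n : ℕ} (y : GP n) (a : Pt) : 0 ≤ chi y a := le_max_left _ _

theorem chi_le_one {n : ℕ} (y : GP n) (a : Pt) : chi y a ≤ 1 :=
  max_le zero_le_one (by have := div_nonneg (dist_nonneg (x := pG y) (y := a)) (rho_pos n).le; linarith)

theorem abs_chi_le {n : ℕ} (y : GP n) (a : Pt) : |chi y a| ≤ 1 := by
  rw [abs_of_nonneg (chi_nonneg y a)]; exact chi_le_one y a

theorem dist_lt_of_chi_pos {n : ℕ} {y : GP n} {a : Pt} (h : 0 < chi y a) :
    dist (pG y) a < rho n := by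
  have h1 : 0 < 1 - dist (pG y) a / rho n := by
    rcases lt_max_iff.mp h with h | h
    · exact absurd h (lt_irrefl _)
    · exact h
  rw [sub_pos, div_lt_one (rho_pos n)] at h1
  exact h1

theorem chi_eq_zero {n : ℕ} (y : GP n) {a : Pt} (h : lev n a = none) : chi y a = 0 := by
  rcases (chi_nonneg y a).eq_or_lt with h1 | h1
  · exact h1.symm
  · obtain ⟨b, rfl, -⟩ := exists_aligned y a (dist_lt_of_chi_pos h1)
    simp at h

theorem abs_chi_sub {n : ℕ} (y y' : GP n) (a a' : Pt) :
    |chi y a - chi y' a'| ≤ (dist (pG y) (pG y') + dist a a') / rho n := by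
  unfold chi
  rw [max_comm 0, max_comm 0]
  refine (abs_max_sub_max_le_abs _ _ _).trans ?_
  have e : 1 - dist (pG y) a / rho n - (1 - dist (pG y') a' / rho n)
      = (dist (pG y') a' - dist (pG y) a) / rho n := by ring
  rw [e, abs_div, abs_of_pos (rho_pos n)]
  refine div_le_div_of_nonneg_right ?_ (rho_pos n).le
  rw [abs_sub_comm]
  exact dist_dist_dist_le _ _ _ _

theorem abs_mul_le_one' {a b : ℝ} (ha : |a| ≤ 1) (hb : |b| ≤ 1) : |a * b| ≤ 1 := by
  rw [abs_mul]
  exact mul_le_one₀ ha (abs_nonneg _) hb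

theorem abs_tau_le (n j0 : ℕ) (a : Pt) : |tau n j0 a| ≤ 1 ∧ |1 - tau n j0 a| ≤ 1 := by
  unfold tau
  cases lev n a with
  | none => simp
  | some b =>
    simp only [Option.elim]
    split_ifs <;> simp

theorem core_false (n j0 : ℕ) (Φ : Pt → StrongDual ℝ (Lip0 Pt base))
    (hlip : ∀ a b, ‖Φ a - Φ b‖ ≤ (n + 1) * dist a b) (h0 : Φ base = 0)
    (hF : ∀ x : FP n, ‖Φ (pF x) - delta base (pF x)‖ ≤ 1)
    (hZ : ∀ (y : GP n) (h : Lip0 Pt base), (∀ a, lev n a = none → h.toFun a = 0) →
      (∀ b : LP n, Tgt j0 b → h.toFun (pt b) = 0) → |Φ (pG y) h| ≤ 1 / 8 * ‖h‖) : False := by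
  classical
  set N : ℝ := n + 1 with hN
  have hN1 : 1 ≤ N := by have := Nat.cast_nonneg (α := ℝ) n; linarith
  have hr : (rr n : ℝ) = 16 * N := by simp [rr, hN]
  have hρ : (rho n : ℝ) = 300 * N ^ 2 := by simp [rho, hN]
  have hρ0 := rho_pos n
  have hr0 := rr_pos n
  set A : ℝ := 40 * N ^ 2 with hA
  have hA0 : 0 < A := by positivity
  obtain ⟨L, hL⟩ : ∃ L : ℕ, (2 + 8 * A) * (low n j0).card < 2 ^ L :=
    pow_unbounded_of_one_lt _ one_lt_two
  set j : ℕ := 2 * L
  obtain ⟨θ, t1, t0, t2, t3, t4⟩ := exists_theta n j0 j L (by omega)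
  -- pairing with a type
  have near : ∀ (y : GP n) (h : Lip0 Pt base),
      |Φ (pG y) h - h.toFun (pF y.typ)| ≤ (N * rr n + 1) * ‖h‖ := by
    intro y h
    have e : Φ (pG y) h - h.toFun (pF y.typ)
        = (Φ (pG y) - Φ (pF y.typ)) h + (Φ (pF y.typ) - delta base (pF y.typ)) h := by simp
    have h1 := (Φ (pG y) - Φ (pF y.typ)).le_opNorm h
    have h2 := (Φ (pF y.typ) - delta base (pF y.typ)).le_opNorm h
    have h3 : ‖Φ (pG y) - Φ (pF y.typ)‖ ≤ N * rr n :=
      (hlip _ _).trans (mul_le_mul_of_nonneg_left (dist_hop y) (by linarith))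
    have h4 := mul_le_mul_of_nonneg_right h3 (norm_nonneg h)
    have h5 := mul_le_mul_of_nonneg_right (hF y.typ) (norm_nonneg h)
    rw [e]
    refine (abs_add_le _ _).trans ?_
    rw [Real.norm_eq_abs] at h1 h2
    linarith
  let g : GP n → Ltr → Lip0 Pt base := fun y s =>
    ofBdd (fun a => chi y a * θ y s a) (by rw [t0 y s base rfl, mul_zero])
      fun a => abs_mul_le_one' (abs_chi_le y a) (t1 y s a)
  have g_apply : ∀ y s a, (g y s).toFun a = chi y a * θ y s a := fun _ _ _ => rfl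
  have g_norm : ∀ y s, ‖g y s‖ ≤ 2 / rr n := by
    intro y s
    have hb : ∀ a, |(g y s).toFun a| ≤ 1 := fun a => abs_mul_le_one' (abs_chi_le y a) (t1 y s a)
    have hb2 : ∀ a b, |(g y s).toFun a - (g y s).toFun b| ≤ 2 := fun a b => by
      have h1 := hb a
      have h2 := hb b
      rw [abs_le] at *
      constructor <;> linarith [h1.1, h1.2, h2.1, h2.2]
    refine norm_le_of_adm _ (by positivity) ⟨fun m z t => ?_, fun m z => ?_, fun m b => ?_⟩
    · rcases eq_or_ne m n with rfl | hm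
      · rw [g_apply, g_apply]
        refine abs_mul_sub_le (chi_nonneg _ _) (chi_nonneg _ _) (t1 _ _ _) (t1 _ _ _) ?_
          fun h1 h2 => t3 y s z t (dist_lt_of_chi_pos h1) (dist_lt_of_chi_pos h2)
        refine (abs_chi_sub y y _ _).trans ?_
        rw [dist_self, zero_add, div_le_div_iff₀ hρ0 hr0]
        have h1 := dist_unit z t
        have h2 : (rr m : ℝ) ≤ rho m := by exact_mod_cast rr_le_rho m
        nlinarith
      · rw [g_apply, g_apply, t0 _ _ _ (lev_pt_ne hm _), t0 _ _ _ (lev_pt_ne hm _)]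
        simp only [mul_zero, sub_zero, abs_zero]
        positivity
    · rcases eq_or_ne m n with rfl | hm
      · rw [div_mul_cancel₀ _ hr0.ne']
        exact hb2 _ _
      · rw [g_apply, g_apply, t0 _ _ _ (lev_pt_ne hm _), t0 _ _ _ (lev_pt_ne hm _)]
        simp only [mul_zero, sub_zero, abs_zero]
        positivity
    · rcases eq_or_ne m n with rfl | hm
      · refine (hb2 _ _).trans ?_
        have h2 : (rr m : ℝ) ≤ rho m := by exact_mod_cast rr_le_rho m
        rw [div_mul_eq_mul_div, le_div_iff₀ hr0]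
        linarith
      · rw [g_apply, g_apply, t0 _ _ _ (lev_pt_ne hm _), t0 _ _ _ (lev_base n)]
        simp only [mul_zero, sub_zero, abs_zero]
        positivity
  -- crude bound
  have crude : ∀ y s, |Φ (pG y) (g y s)| ≤ A := by
    intro y s
    have h1 := (Φ (pG y)).le_opNorm (g y s)
    have h2 : ‖Φ (pG y)‖ ≤ N * rho n := by
      have := hlip (pG y) base
      rw [h0, sub_zero] at this
      exact this.trans (mul_le_mul_of_nonneg_left (dist_far _) (by linarith))
    have h3 := mul_le_mul h2 (g_norm y s) (norm_nonneg _) (by positivity)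
    have h4 : N * rho n * (2 / rr n) ≤ A := by
      rw [hρ, hr, hA]
      have : N * (300 * N ^ 2) * (2 / (16 * N)) = 75 / 2 * N ^ 2 := by field_simp; ring
      rw [this]
      nlinarith
    rw [Real.norm_eq_abs] at h1
    linarith
  -- lower bound at every vertex
  have lower : ∀ y : YY n j, 1 ≤ ∑ s, Φ (pG (GP.mk' y)) (g (GP.mk' y) s) := by
    intro y
    let c1 : Lip0 Pt base := ofBdd (chi (GP.mk' y)) (chi_eq_zero _ rfl) (abs_chi_le _)
    let c2 : Lip0 Pt base := ofBdd (fun a => chi (GP.mk' y) a * (1 - tau n j0 a))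
      (by rw [chi_eq_zero _ rfl, zero_mul])
      fun a => abs_mul_le_one' (abs_chi_le _ a) (abs_tau_le n j0 a).2
    have e : ∑ s, g (GP.mk' y) s = (2 : ℝ) • (c1 - c2) := by
      ext a
      rw [Lip0.sum_toFun]
      simp only [g_apply, ← mul_sum, t2, Lip0.smul_toFun, Lip0.sub_toFun, c1, c2, ofBdd_toFun]
      ring
    have n1 : ‖c1‖ ≤ 1 / rho n := by
      refine c1.lipConst_le (by positivity) fun a b => ?_
      have := abs_chi_sub (GP.mk' y) (GP.mk' y) a b
      rw [dist_self, zero_add] at this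
      rw [one_div, ← div_eq_inv_mul]
      exact this
    have n2 : ‖c2‖ ≤ 2 * 1 := norm_le_of_bound c2 one_pos
      fun a => abs_mul_le_one' (abs_chi_le _ a) (abs_tau_le n j0 a).2
    have b2 := hZ (GP.mk' y) c2 (fun a ha => by simp [c2, chi_eq_zero _ ha])
      (fun b hb => by simp [c2, tau, hb])
    have b1 := near (GP.mk' y) c1
    have b3 : 1 - rr n / rho n ≤ c1.toFun (pF (GP.mk' y).typ) := by
      refine le_trans ?_ (le_max_right _ _)
      have := div_le_div_of_nonneg_right (dist_hop (GP.mk' y)) hρ0.le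
      linarith
    have b4 : (N * rr n + 1) * ‖c1‖ ≤ (N * rr n + 1) * (1 / rho n) :=
      mul_le_mul_of_nonneg_left n1 (by positivity)
    have b5 : (N * rr n + 1) * (1 / rho n) + rr n / rho n ≤ 1 / 4 := by
      rw [mul_one_div, ← add_div, div_le_iff₀ hρ0, hρ, hr]
      nlinarith
    rw [← map_sum, e, map_smul, map_sub, smul_eq_mul]
    have := (abs_le.mp b1).1
    have := (abs_le.mp b2).2
    linarith
  -- estimate along a good edge
  have edge : ∀ (y : GP n) s, y.idx = j → ¬ Bad j0 L y → ¬ Bad j0 L (ltr s • y) →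
      Φ (pG y) (g y s) + Φ (pG (ltr s • y)) (g (ltr s • y) (inv s)) ≤ 1 / 4 := by
    intro y s hy b1 b2
    have e : Φ (pG y) (g y s) + Φ (pG (ltr s • y)) (g (ltr s • y) (inv s))
        = (Φ (pG y) - Φ (pG (ltr s • y))) (g y s)
          + Φ (pG (ltr s • y)) (g y s + g (ltr s • y) (inv s)) := by
      rw [sub_apply, map_add]; ring
    have k1 : ∀ a, |(g y s + g (ltr s • y) (inv s)).toFun a| ≤ 1 / rho n := by
      intro a
      have e2 : (g y s + g (ltr s • y) (inv s)).toFun a
          = chi y a * θ y s a - chi (ltr s • y) a * (- θ (ltr s • y) (inv s) a) := by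
        rw [Lip0.add_toFun, g_apply, g_apply]; ring
      rw [e2]
      refine abs_mul_sub_le (chi_nonneg _ _) (chi_nonneg _ _) (t1 _ _ _)
        (by rw [abs_neg]; exact t1 _ _ _) ?_ fun h1 h2 => ?_
      · refine (abs_chi_sub _ _ _ _).trans ?_
        rw [dist_self, add_zero]
        exact div_le_div_of_nonneg_right (dist_unit y s) hρ0.le
      · rw [t4 y s a hy b1 b2 (dist_lt_of_chi_pos h1) (dist_lt_of_chi_pos h2), neg_neg]
    have k2 := norm_le_of_bound _ (by positivity) k1
    have k3 := near (ltr s • y) (g y s + g (ltr s • y) (inv s))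
    have k4 := mul_le_mul_of_nonneg_left k2 (by positivity : 0 ≤ N * rr n + 1)
    have k5 := (Φ (pG y) - Φ (pG (ltr s • y))).le_opNorm (g y s)
    have k6 : ‖Φ (pG y) - Φ (pG (ltr s • y))‖ ≤ N :=
      (hlip _ _).trans (mul_le_of_le_one_right (by linarith) (dist_unit y s))
    have k7 := mul_le_mul k6 (g_norm y s) (norm_nonneg _) (by linarith)
    have k8 : N * (2 / rr n) = 1 / 8 := by rw [hr]; field_simp; ring
    have k9 : (N * rr n + 1) * (2 * (1 / rho n)) + 1 / rho n ≤ 1 / 8 := by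
      have : (N * rr n + 1) * (2 * (1 / rho n)) + 1 / rho n = (2 * N * rr n + 3) / rho n := by
        field_simp; ring
      rw [this, div_le_iff₀ hρ0, hρ, hr]
      nlinarith
    rw [Real.norm_eq_abs] at k5
    have := (abs_le.mp k3).2
    have := (abs_le.mp (k1 (pF (ltr s • y).typ))).2
    have := le_abs_self ((Φ (pG y) - Φ (pG (ltr s • y))) (g y s))
    rw [e]
    linarith
  -- summation
  let bad : YY n j → ℝ := fun y => if Bad j0 L (GP.mk' y) then 1 else 0
  let Fn : YY n j × Ltr → ℝ := fun q =>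
    if Bad j0 L (GP.mk' q.1) then 0 else Φ (pG (GP.mk' q.1)) (g (GP.mk' q.1) q.2)
  let σ : YY n j × Ltr ≃ YY n j × Ltr :=
    { toFun := fun q => (YY.act (ltr q.2) q.1, inv q.2)
      invFun := fun q => (YY.act (ltr q.2) q.1, inv q.2)
      left_inv := fun q => by
        simp only [inv_inv', ← YY.act_mul, ltr_inv, inv_mul_cancel, YY.act_one]
      right_inv := fun q => by
        simp only [inv_inv', ← YY.act_mul, ltr_inv, inv_mul_cancel, YY.act_one] }
  have s1 : ∑ q, Fn (σ q) = ∑ q, Fn q := Equiv.sum_comp σ Fn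
  have s2 : ∑ q, bad (σ q).1 = ∑ q : YY n j × Ltr, bad q.1 := Equiv.sum_comp σ fun q => bad q.1
  have s3 : ∑ q : YY n j × Ltr, bad q.1 = 4 * ∑ y, bad y := by
    rw [Fintype.sum_prod_type, mul_sum]
    simp
  have s4 : ∀ q, Fn q + Fn (σ q) ≤ 1 / 4 + A * bad q.1 + A * bad (σ q).1 := by
    rintro ⟨y, s⟩
    change (if Bad j0 L (GP.mk' y) then 0 else Φ (pG (GP.mk' y)) (g (GP.mk' y) s))
      + (if Bad j0 L (ltr s • GP.mk' y) then 0
        else Φ (pG (ltr s • GP.mk' y)) (g (ltr s • GP.mk' y) (inv s)))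
      ≤ 1 / 4 + A * (if Bad j0 L (GP.mk' y) then 1 else 0)
        + A * (if Bad j0 L (ltr s • GP.mk' y) then 1 else 0)
    have c1 := (abs_le.mp (crude (GP.mk' y) s)).2
    have c2 := (abs_le.mp (crude (ltr s • GP.mk' y) (inv s))).2
    split_ifs with h1 h2 h2
    · linarith
    · linarith
    · linarith
    · have := edge (GP.mk' y) s rfl h1 h2
      linarith
  have s5 : ∑ y : YY n j, (1 - bad y) ≤ ∑ q, Fn q := by
    rw [Fintype.sum_prod_type Fn]
    refine sum_le_sum fun y _ => ?_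
    simp only [Fn, bad]
    split_ifs with h
    · simp
    · simpa using lower y
  have s6 := sum_le_sum fun q (_ : q ∈ univ) => s4 q
  rw [sum_add_distrib, s1, sum_add_distrib, sum_add_distrib, ← mul_sum, ← mul_sum, s2, s3] at s6
  rw [sum_sub_distrib] at s5
  obtain ⟨Y, hY⟩ : ∃ Y : ℝ, Y = (Fintype.card (YY n j) : ℝ) := ⟨_, rfl⟩
  have hY0 : 0 < Y := by rw [hY]; exact_mod_cast Fintype.card_pos
  have e1 : ∑ _y : YY n j, (1 : ℝ) = Y := by simp only [sum_const, card_univ, nsmul_eq_mul, mul_one, hY]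
  have e2 : ∑ _q : YY n j × Ltr, (1 / 4 : ℝ) = Y := by
    rw [sum_const, card_univ, Fintype.card_prod, nsmul_eq_mul, hY]
    simp only [Fintype.card_prod Bool Bool, Fintype.card_bool]
    push_cast
    ring
  rw [e1] at s5
  rw [e2] at s6
  have hb : (∑ y, bad y) * 2 ^ L ≤ (low n j0).card * Y := by
    have h1 := card_bad n j0 j L le_rfl
    have h2 : ∑ y, bad y = (univ.filter fun y : YY n j => Bad j0 L (GP.mk' y)).card := by
      simp [bad]
    rw [h2, hY]
    exact_mod_cast h1
  generalize ∑ y, bad y = b at *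
  have f1 : Y ≤ (2 + 8 * A) * b := by linarith
  have f2 : Y * 2 ^ L ≤ (2 + 8 * A) * ((low n j0).card * Y) :=
    calc Y * 2 ^ L ≤ (2 + 8 * A) * b * 2 ^ L := mul_le_mul_of_nonneg_right f1 (by positivity)
      _ = (2 + 8 * A) * (b * 2 ^ L) := by ring
      _ ≤ _ := mul_le_mul_of_nonneg_left hb (by positivity)
  nlinarith

theorem norm_map_sub_le {X : Type} [NormedAddCommGroup X] [NormedSpace ℝ X] (T : X →L[ℝ] X)
    {c d : ℝ} (hT : ‖T‖ ≤ c) (u v : X) (h : ‖u - v‖ ≤ d) : ‖T u - T v‖ ≤ c * d := by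
  rw [← map_sub]
  exact (T.le_opNorm _).trans (mul_le_mul hT h (norm_nonneg _) ((norm_nonneg _).trans hT))

theorem mem_ball_of_sub {X : Type} [NormedAddCommGroup X] {u v : X} {R : ℝ} (hv : v = 0)
    (h : ‖u - v‖ ≤ R) : u ∈ Metric.closedBall (0 : X) R := by
  rwa [mem_closedBall_zero_iff, ← sub_zero u, ← hv]

theorem not_hasBAP : ¬ HasBAP (FreeSpace Pt base) := by
  classical
  rintro ⟨lam, -, hlam⟩
  obtain ⟨n, hn⟩ := exists_nat_ge lam
  obtain ⟨T, hT, hTn, hTC⟩ := hlam (Set.range fun x : FP n => dl base (pF x))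
    (Set.finite_range _).isCompact 1 one_pos
  obtain ⟨Z, hZ⟩ := exists_finset_of_totallyBounded _
    (totallyBounded_image_of_finiteRank T hT (rho n)) (by norm_num : (0 : ℝ) < 1 / 8)
  let ix : Pt → ℕ := fun a => Option.elim (lev n a) 0 (Sum.elim (fun _ => 0) GP.idx)
  refine core_false n (Z.sup ix + 1) (fun a => (T (dl base a)).1) ?_ ?_ ?_ ?_
  · intro a b
    exact norm_map_sub_le T (hTn.trans (hn.trans (le_add_of_nonneg_right zero_le_one))) _ _
      (norm_dl_sub_le a b)
  · simp only [dl_base, map_zero]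
    rfl
  · intro x
    exact (hTC _ ⟨x, rfl⟩).le
  · intro y h h1 h2
    refine hZ _ ⟨dl base (pG y), ?_, rfl⟩ h fun z hz => ?_
    · exact mem_ball_of_sub dl_base ((norm_dl_sub_le (pG y) base).trans (dist_far _))
    · cases hl : lev n z with
      | none => exact h1 z hl
      | some b =>
        have hle : ix z ≤ Z.sup ix := le_sup hz
        rw [eq_pt_of_lev hl]
        refine h2 b ?_
        rcases b with x | w
        · trivial
        · simp only [ix, hl, Option.elim, Sum.elim_inr] at hle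
          exact Nat.lt_succ_of_le hle

end Vale.Agent.P090
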