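import Vale.Agent.P090.Grp
import Vale.Agent.P090.Analytic

/-!
The metric space: anchor points (types) and coloured Cayley graphs of finite quotients.
-/

noncomputable section

namespace Vale.Agent.P090

/-- Length of the edge from a vertex to its type, at level `n`. -/
def rr (n : ℕ) : ℕ := 16 * (n + 1)
/-- Radius of the view, at level `n`. -/
def rho (n : ℕ) : ℕ := 300 * (n + 1) ^ 2

theorem one_le_rr (n : ℕ) : 1 ≤ rr n := by unfold rr; omega
theorem rr_le_rho (n : ℕ) : rr n ≤ rho n := by unfold rr rho; nlinarith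
theorem one_le_rho (n : ℕ) : 1 ≤ rho n := (one_le_rr n).trans (rr_le_rho n)

abbrev QQ (n : ℕ) : Type := H (2 * rho n)
abbrev FP (n : ℕ) : Type := QQ n × (Ball (rho n) → Fin 8)
abbrev YY (n j : ℕ) : Type := QQ n × H j × (H j → Fin 8)

/-- Vertices of the coloured Cayley graphs of level `n`. -/
def GP (n : ℕ) : Type := Σ j : ℕ, YY n j

instance (n : ℕ) : Countable (GP n) := inferInstanceAs (Countable (Σ j : ℕ, YY n j))

def YY.act {n j : ℕ} (g : W) (y : YY n j) : YY n j :=
  (proj _ g * y.1, proj _ g * y.2.1, y.2.2)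

theorem YY.act_one {n j : ℕ} (y : YY n j) : YY.act 1 y = y := by simp [YY.act]

theorem YY.act_mul {n j : ℕ} (g h : W) (y : YY n j) :
    YY.act (g * h) y = YY.act g (YY.act h y) := by simp [YY.act, mul_assoc]

instance (n : ℕ) : MulAction W (GP n) where
  smul g z := ⟨z.1, YY.act g z.2⟩
  one_smul z := congrArg (Sigma.mk z.1) (YY.act_one z.2)
  mul_smul g h z := congrArg (Sigma.mk z.1) (YY.act_mul g h z.2)

def GP.mk' {n j : ℕ} (y : YY n j) : GP n := ⟨j, y⟩
def GP.idx {n : ℕ} (z : GP n) : ℕ := z.1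
def GP.pos {n : ℕ} (z : GP n) : QQ n := z.2.1
def GP.col {n : ℕ} (z : GP n) : Fin 8 := z.2.2.2 z.2.2.1

theorem GP.smul_mk' {n j : ℕ} (g : W) (y : YY n j) : g • GP.mk' y = GP.mk' (YY.act g y) := rfl
@[simp] theorem GP.idx_smul {n : ℕ} (g : W) (z : GP n) : (g • z).idx = z.idx := rfl
@[simp] theorem GP.pos_smul {n : ℕ} (g : W) (z : GP n) : (g • z).pos = proj _ g * z.pos := rfl
@[simp] theorem GP.idx_mk' {n j : ℕ} (y : YY n j) : (GP.mk' y).idx = j := rfl

/-- The type of a vertex: its position and the colours around it. -/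
def GP.typ {n : ℕ} (z : GP n) : FP n := (z.pos, fun u => (u.1⁻¹ • z).col)

abbrev LP (n : ℕ) : Type := FP n ⊕ GP n

def LP.typ {n : ℕ} : LP n → FP n := Sum.elim id GP.typ

/-- The points of the space. -/
def Pt : Type := Option (Σ n : ℕ, LP n)

instance : Countable Pt := inferInstanceAs (Countable (Option (Σ n : ℕ, LP n)))

def base : Pt := none
def pt {n : ℕ} (b : LP n) : Pt := some ⟨n, b⟩
abbrev pF {n : ℕ} (x : FP n) : Pt := pt (Sum.inl x)
abbrev pG {n : ℕ} (z : GP n) : Pt := pt (Sum.inr z)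

theorem Pt.cases' (a : Pt) : a = base ∨ ∃ n, ∃ b : LP n, a = pt b := by
  rcases a with _ | ⟨n, b⟩
  · exact Or.inl rfl
  · exact Or.inr ⟨n, b, rfl⟩

/-- Functions that are `L`-Lipschitz along the edges of the weighted graph. -/
structure Adm (L : ℝ) (f : Pt → ℝ) : Prop where
  unit : ∀ n (z : GP n) (s : Ltr), |f (pG z) - f (pG (ltr s • z))| ≤ L
  hop : ∀ n (z : GP n), |f (pG z) - f (pF z.typ)| ≤ L * rr n
  far : ∀ n (b : LP n), |f (pt b) - f base| ≤ L * rho n

def height : Pt → ℝ := fun a => Option.elim a 0 fun p => (rho p.1 : ℝ)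

theorem Adm.abs_sub_base {f : Pt → ℝ} (hf : Adm 1 f) (a : Pt) : |f a - f base| ≤ height a := by
  rcases a.cases' with rfl | ⟨n, b, rfl⟩
  · simp [height, base]
  · simpa [height, pt] using hf.far n b

def dset (a b : Pt) : Set ℝ := {t | ∃ f, Adm 1 f ∧ t = |f a - f b|}

theorem adm_zero : Adm 1 (fun _ => 0) :=
  ⟨fun _ _ _ => by simp, fun _ _ => by simp, fun _ _ => by simp⟩

theorem dset_nonempty (a b : Pt) : (dset a b).Nonempty := ⟨_, _, adm_zero, rfl⟩

theorem dset_bdd (a b : Pt) : BddAbove (dset a b) := by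
  refine ⟨height a + height b, ?_⟩
  rintro _ ⟨f, hf, rfl⟩
  have h1 := hf.abs_sub_base a
  have h2 := hf.abs_sub_base b
  rw [abs_le] at *
  constructor <;> linarith [h1.1, h1.2, h2.1, h2.2]

def dd (a b : Pt) : ℝ := sSup (dset a b)

theorem le_dd {f : Pt → ℝ} (hf : Adm 1 f) (a b : Pt) : |f a - f b| ≤ dd a b :=
  le_csSup (dset_bdd a b) ⟨f, hf, rfl⟩

theorem dd_le {a b : Pt} {t : ℝ} (h : ∀ f, Adm 1 f → |f a - f b| ≤ t) : dd a b ≤ t :=
  csSup_le (dset_nonempty a b) (by rintro _ ⟨f, hf, rfl⟩; exact h f hf)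

theorem adm_of_osc {f : Pt → ℝ} {L : ℝ} (hL : 0 ≤ L) (h : ∀ a b, |f a - f b| ≤ L) : Adm L f := by
  refine ⟨fun _ _ _ => h _ _, fun n _ => (h _ _).trans ?_, fun n _ => (h _ _).trans ?_⟩
  · exact le_mul_of_one_le_right hL (by exact_mod_cast one_le_rr n)
  · exact le_mul_of_one_le_right hL (by exact_mod_cast one_le_rho n)

theorem one_le_dd {a b : Pt} (h : a ≠ b) : 1 ≤ dd a b := by
  classical
  have hf : Adm 1 (fun x => if x = a then (1 : ℝ) else 0) := by
    refine adm_of_osc zero_le_one fun x y => ?_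
    split_ifs <;> simp
  simpa [h.symm] using le_dd hf a b

instance : MetricSpace Pt where
  dist := dd
  dist_self a := le_antisymm (dd_le fun f _ => by simp) (by simpa using le_dd adm_zero a a)
  dist_comm a b := by
    refine le_antisymm (dd_le fun f hf => ?_) (dd_le fun f hf => ?_) <;>
    · rw [abs_sub_comm]; exact le_dd hf _ _
  dist_triangle a b c := dd_le fun f hf =>
    (abs_sub_le _ (f b) _).trans (add_le_add (le_dd hf _ _) (le_dd hf _ _))
  eq_of_dist_eq_zero {a b} h := by
    by_contra hab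
    have h1 := one_le_dd hab
    have h2 : dd a b = 0 := h
    linarith

theorem one_le_dist {a b : Pt} (h : a ≠ b) : 1 ≤ dist a b := one_le_dd h

theorem dist_unit {n : ℕ} (z : GP n) (s : Ltr) : dist (pG z) (pG (ltr s • z)) ≤ 1 :=
  dd_le fun _ hf => hf.unit n z s

theorem dist_hop {n : ℕ} (z : GP n) : dist (pG z) (pF z.typ) ≤ rr n :=
  dd_le fun _ hf => by simpa using hf.hop n z

theorem dist_far {n : ℕ} (b : LP n) : dist (pt b) base ≤ rho n :=
  dd_le fun _ hf => by simpa using hf.far n b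

theorem Adm.lip {f : Pt → ℝ} {L : ℝ} (hL : 0 < L) (hf : Adm L f) (a b : Pt) :
    |f a - f b| ≤ L * dist a b := by
  have key : ∀ x y : Pt, |f x / L - f y / L| = |f x - f y| / L := fun x y => by
    rw [← sub_div, abs_div, abs_of_pos hL]
  have hg : Adm 1 (fun x => f x / L) := by
    refine ⟨fun n z s => ?_, fun n z => ?_, fun n b => ?_⟩
    · rw [key, div_le_iff₀ hL, one_mul]; exact hf.unit n z s
    · rw [key, div_le_iff₀ hL, one_mul, mul_comm]; exact hf.hop n z
    · rw [key, div_le_iff₀ hL, one_mul, mul_comm]; exact hf.far n b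
  have := le_dd hg a b
  rwa [key, div_le_iff₀ hL, mul_comm] at this

theorem norm_le_of_adm (h : Lip0 Pt base) {L : ℝ} (hL : 0 < L) (hf : Adm L h.toFun) : ‖h‖ ≤ L :=
  h.lipConst_le hL.le (hf.lip hL)

theorem norm_le_of_bound (h : Lip0 Pt base) {B : ℝ} (hB : 0 < B) (hf : ∀ a, |h.toFun a| ≤ B) :
    ‖h‖ ≤ 2 * B := by
  refine norm_le_of_adm h (by linarith) (adm_of_osc (by linarith) fun a b => ?_)
  have h1 := hf a
  have h2 := hf b
  rw [abs_le] at *
  constructor <;> linarith [h1.1, h1.2, h2.1, h2.2]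

/-- A bounded function vanishing at the base point, as an element of `Lip0`. -/
def ofBdd (f : Pt → ℝ) (h0 : f base = 0) (hf : ∀ a, |f a| ≤ 1) : Lip0 Pt base :=
  Lip0.of f h0 2 zero_le_two (Adm.lip two_pos (adm_of_osc zero_le_two fun a b => by
    have h1 := hf a
    have h2 := hf b
    rw [abs_le] at *
    constructor <;> linarith [h1.1, h1.2, h2.1, h2.2]))

@[simp] theorem ofBdd_toFun (f : Pt → ℝ) (h0 : f base = 0) (hf : ∀ a, |f a| ≤ 1) (a : Pt) :
    (ofBdd f h0 hf).toFun a = f a := rfl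

/-! Alignment of nearby points. -/

/-- The level-`n` part of a point. -/
def lev (n : ℕ) (a : Pt) : Option (LP n) :=
  Option.elim a none fun p => if h : p.1 = n then some (h ▸ p.2) else none

@[simp] theorem lev_base (n : ℕ) : lev n base = none := rfl
@[simp] theorem lev_pt {n : ℕ} (b : LP n) : lev n (pt b) = some b := by simp [lev, pt]
theorem lev_pt_ne {n m : ℕ} (h : m ≠ n) (b : LP m) : lev n (pt b) = none := by simp [lev, pt, h]

theorem eq_pt_of_lev {n : ℕ} {a : Pt} {b : LP n} (h : lev n a = some b) : a = pt b := by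
  rcases a.cases' with rfl | ⟨m, c, rfl⟩
  · simp at h
  · rcases eq_or_ne m n with rfl | hm
    · rw [lev_pt] at h
      rw [Option.some.inj h]
    · rw [lev_pt_ne hm] at h
      cases h

/-- `u` aligns the type `x` with the vertex `y`. -/
def Aligned {n : ℕ} (y : GP n) (x : FP n) (u : Ball (rho n)) : Prop :=
  x.1 = proj _ u.1 * y.pos ∧ x.2 u = y.col

def alignSet {n : ℕ} (y : GP n) (x : FP n) : Set ℕ :=
  {k | k = rho n ∨ ∃ u, Aligned y x u ∧ u.1.norm = k}

def alignDist {n : ℕ} (y : GP n) (x : FP n) : ℕ := sInf (alignSet y x)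

theorem alignDist_mem {n : ℕ} (y : GP n) (x : FP n) : alignDist y x ∈ alignSet y x :=
  Nat.sInf_mem ⟨rho n, Or.inl rfl⟩

theorem alignDist_le_rho {n : ℕ} (y : GP n) (x : FP n) : alignDist y x ≤ rho n :=
  Nat.sInf_le (Or.inl rfl)

theorem alignDist_step {n : ℕ} (y z : GP n) (s : Ltr) :
    alignDist y (ltr s • z).typ ≤ alignDist y z.typ + 1 := by
  rcases alignDist_mem y z.typ with h | ⟨u, hu, h⟩
  · have := alignDist_le_rho y (ltr s • z).typ
    omega
  · by_cases hr : (ltr s * u.1).norm ≤ rho n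
    · have h1 : alignDist y (ltr s • z).typ ≤ (ltr s * u.1).norm := by
        refine Nat.sInf_le (Or.inr ⟨⟨ltr s * u.1, hr⟩, ⟨?_, ?_⟩, rfl⟩)
        · have := hu.1
          simp only [GP.typ, GP.pos_smul, map_mul] at this ⊢
          rw [this, mul_assoc]
        · have := hu.2
          simp only [GP.typ, smul_smul, mul_inv_rev, inv_mul_cancel_right] at this ⊢
          exact this
      have h2 := norm_ltr_mul_le s u.1
      omega
    · have h1 := alignDist_le_rho y (ltr s • z).typ
      have h2 := norm_ltr_mul_le s u.1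
      omega

def alignFun {n : ℕ} (y : GP n) (a : Pt) : ℝ :=
  Option.elim (lev n a) (rho n : ℝ) fun b => (alignDist y b.typ : ℝ)

theorem adm_alignFun {n : ℕ} (y : GP n) : Adm 1 (alignFun y) := by
  refine ⟨fun m z s => ?_, fun m z => ?_, fun m b => ?_⟩
  · rcases eq_or_ne m n with rfl | hm
    · simp only [alignFun, lev_pt, Option.elim, LP.typ, Sum.elim_inr]
      have h1 := alignDist_step y z s
      have h2 := alignDist_step y (ltr s • z) (inv s)
      rw [ltr_inv, inv_smul_smul] at h2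
      have h1' : (alignDist y (ltr s • z).typ : ℝ) ≤ alignDist y z.typ + 1 := by exact_mod_cast h1
      have h2' : (alignDist y z.typ : ℝ) ≤ alignDist y (ltr s • z).typ + 1 := by exact_mod_cast h2
      rw [abs_le]
      constructor <;> linarith
    · simp [alignFun, lev_pt_ne hm]
  · rcases eq_or_ne m n with rfl | hm
    · simp [alignFun, LP.typ]
    · simp [alignFun, lev_pt_ne hm]
  · rcases eq_or_ne m n with rfl | hm
    · simp only [alignFun, lev_pt, lev_base, Option.elim, one_mul]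
      have h1 : (alignDist y b.typ : ℝ) ≤ rho m := by exact_mod_cast alignDist_le_rho y b.typ
      have h2 : (0 : ℝ) ≤ alignDist y b.typ := Nat.cast_nonneg _
      rw [abs_le]
      constructor <;> linarith
    · simp [alignFun, lev_pt_ne hm]

theorem alignFun_self {n : ℕ} (y : GP n) : alignFun y (pG y) = 0 := by
  have : alignDist y y.typ ≤ 0 := by
    refine Nat.sInf_le (Or.inr ⟨⟨1, by simp⟩, ⟨?_, ?_⟩, by simp⟩) <;> simp [GP.typ]
  simp only [alignFun, lev_pt, Option.elim, LP.typ, Sum.elim_inr]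
  exact_mod_cast Nat.le_zero.mp this

theorem exists_aligned {n : ℕ} (y : GP n) (a : Pt) (h : dist (pG y) a < rho n) :
    ∃ b : LP n, a = pt b ∧ ∃ u, Aligned y b.typ u ∧ u.1.norm < rho n := by
  have h1 : |alignFun y (pG y) - alignFun y a| ≤ dist (pG y) a := le_dd (adm_alignFun y) _ _
  rw [alignFun_self, zero_sub, abs_neg] at h1
  have h2 : alignFun y a < rho n := (le_abs_self _).trans_lt (h1.trans_lt h)
  unfold alignFun at h2
  cases hl : lev n a with
  | none => simp [hl] at h2
  | some b =>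
    refine ⟨b, eq_pt_of_lev hl, ?_⟩
    simp only [hl, Option.elim, Nat.cast_lt] at h2
    rcases alignDist_mem y b.typ with h3 | ⟨u, hu, h3⟩
    · omega
    · exact ⟨u, hu, by omega⟩

end Vale.Agent.P090
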